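import Vale.Agent.P190.Assembly
import Vale.Agent.P190.Grading

/-!
Small Cohen–Macaulay modules at all rational points of multigraded domains in positive
characteristic, when the dimension exceeds the grading rank by at most two or when the domain is
free over a Noether normalisation outside a locus of dimension less than the grading rank.
-/

namespace Vale.Agent.Results.P190.MultigradedSmallBadLocus

open MvPolynomial Vale.Agent.P190

theorem result (p : ℕ) [Fact p.Prime] (k : Type) [Field k] [CharP k p] [PerfectRing k p]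
    (n r : ℕ) (hr : 1 ≤ r) (P : Ideal (MvPolynomial (Fin n) k)) [P.IsPrime]
    (w : Fin n → Fin r → ℤ)
    (hP : ∀ f ∈ P, ∀ c : Fin r → ℤ, weightedHomogeneousComponent w c f ∈ P)
    (hrank : ∃ ι : Fin r → Fin n,
      (∀ i, X (ι i) ∉ P) ∧ (Matrix.of fun i j => w (ι i) j).det ≠ 0)
    (R : Type) [CommRing R] [IsNoetherianRing R] [Algebra k R]
    (φ : (MvPolynomial (Fin n) k ⧸ P) ≃ₐ[k] R)
    (hbad : ringKrullDim R ≤ ((r + 2 : ℕ) : WithBot ℕ∞) ∨
      ∃ (d : ℕ) (_ : Algebra (MvPolynomial (Fin d) k) R),
        IsScalarTower k (MvPolynomial (Fin d) k) R ∧ FaithfulSMul (MvPolynomial (Fin d) k) R ∧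
        Module.Finite (MvPolynomial (Fin d) k) R ∧
        ∀ (Q : Ideal (MvPolynomial (Fin d) k)) [Q.IsPrime], 3 ≤ Q.height → Q.height + r ≤ d →
          Module.Free (Localization.AtPrime Q) (LocalizedModule Q.primeCompl R))
    (m : Ideal R) [m.IsMaximal]
    (hres : Function.Surjective ((Ideal.Quotient.mk m).comp (algebraMap k R))) :
    ∃ d : ℕ, ringKrullDim (Localization.AtPrime m) = d ∧
    IsNoetherianRing (AdicCompletion (IsLocalRing.maximalIdeal (Localization.AtPrime m))
      (Localization.AtPrime m)) ∧
    ringKrullDim (AdicCompletion (IsLocalRing.maximalIdeal (Localization.AtPrime m))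
      (Localization.AtPrime m)) = d ∧
    (∃ (M : Type) (_ : AddCommGroup M) (_ : Module (Localization.AtPrime m) M),
      Module.Finite (Localization.AtPrime m) M ∧
      ∃ rs : List (Localization.AtPrime m), rs.length = d ∧
        (∀ x ∈ rs, x ∈ IsLocalRing.maximalIdeal (Localization.AtPrime m)) ∧
        RingTheory.Sequence.IsRegular M rs) ∧
    (∃ (M : Type) (_ : AddCommGroup M) (_ : Module (AdicCompletion
        (IsLocalRing.maximalIdeal (Localization.AtPrime m)) (Localization.AtPrime m)) M),
      Module.Finite (AdicCompletion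
        (IsLocalRing.maximalIdeal (Localization.AtPrime m)) (Localization.AtPrime m)) M ∧
      ∃ rs : List (AdicCompletion
        (IsLocalRing.maximalIdeal (Localization.AtPrime m)) (Localization.AtPrime m)),
        rs.length = d ∧
        (∀ x ∈ rs, x ∈ IsLocalRing.maximalIdeal (AdicCompletion
          (IsLocalRing.maximalIdeal (Localization.AtPrime m)) (Localization.AtPrime m))) ∧
        RingTheory.Sequence.IsRegular M rs) := by
  obtain ⟨ι, hι, hdet⟩ := hrank
  have : IsDomain R := φ.symm.toMulEquiv.isDomain
  have : Algebra.FiniteType k R := Algebra.FiniteType.equiv inferInstance φ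
  refine exists_small_CM_of_projections (p := p) r
    ((Matrix.of fun i j => w (ι i) j).det.natAbs ^ r) hr (fun e => ?_) ?_ m hres
  swap
  · rcases hbad with h | ⟨d, alg, htow, hfaith, hfin, hfree⟩
    · exact Or.inl h
    refine Or.inr ⟨d, IsScalarTower.toAlgHom k (MvPolynomial (Fin d) k) R,
      FaithfulSMul.algebraMap_injective _ _, ?_, fun Q hQ h3 hle hsub => ?_⟩
    · exact RingHom.finite_algebraMap.mpr hfin
    have : Module.IsTorsionFree (MvPolynomial (Fin d) k) R := Module.IsTorsionFree.trans (R := R)
    have := hfree Q h3 hle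
    obtain ⟨t, ht, htJ⟩ := exists_mem_of_free (V := R) Q
    have e : (IsScalarTower.toAlgHom k (MvPolynomial (Fin d) k) R).toRingHom.toAlgebra = alg :=
      Algebra.algebra_ext _ _ fun _ => rfl
    rw [e] at hsub
    exact ht (hsub htJ)
  obtain ⟨I, hI, ⟨Q⟩, hc⟩ := exists_projections (p := p) w P hP ι hι hdet e
  exact ⟨I, hI, ⟨Q.congr φ.toRingEquiv⟩, hc⟩

end Vale.Agent.Results.P190.MultigradedSmallBadLocus
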